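import Vale.Agent.P011.D4Z.Defs
import Vale.Agent.P011.D4X.H69.NearX

/-!
Block D4Z (helper637): the embeddings over a place of `k`.
-/

open Topology NumberField

set_option linter.unusedSectionVars false
set_option linter.unusedSimpArgs false

namespace Vale.Agent.P011.D4Z

open Vale.Agent.P011.MPQ Vale.Agent.P011.D4 Vale.Agent.P011.D4.Oct Vale.Agent.P011.D4X
open Vale.Agent.P011.E6
open scoped ComplexConjugate

section model

variable {k L E : Type} [Field k] [NumberField k] [Field L] [NumberField L] [Field E]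
  [NumberField E] [Algebra k L] [Algebra k E] [Algebra L E]
  [IsScalarTower k L E] [NeZero (2 : E)] {ρ σ : E ≃ₐ[k] E} {ρL : L ≃ₐ[k] L} {α : E}
  {a b c : kˣ} {q : Lˣ} (H : Hy ρ σ ρL α a b c q)

include H

theorem exists_rho_ne : ∃ x : E, σ x = x ∧ ρ x ≠ x ∧ ρ (ρ x) ≠ x ∧ ρ (ρ x) ≠ ρ x := by
  obtain ⟨t, ht⟩ : ∃ t : L, ρL t ≠ t := by
    by_contra h
    push Not at h
    exact H.ρ1 (AlgEquiv.ext h)
  have h1 : ρ (algebraMap L E t) ≠ algebraMap L E t := by
    rw [H.ρL']
    exact fun h => ht ((algebraMap L E).injective h)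
  refine ⟨algebraMap L E t, H.σL t, h1, fun h => h1 ?_, fun h => h1 ?_⟩
  · have h2 := congrArg ρ h
    rw [H.ρ3] at h2
    exact h2.symm
  · exact ρ.injective h

/-- All the embeddings over the same place of `k`. -/
theorem exists_gal [Algebra k ℂ] (W V : E →ₐ[k] ℂ) :
    (∃ i : Fin 3, V = W.comp ((ρ : E →ₐ[k] E) ^ (i : ℕ))) ∨
      ∃ i : Fin 3, V = (W.comp ((ρ : E →ₐ[k] E) ^ (i : ℕ))).comp (σ : E →ₐ[k] E) := by
  classical
  have : FiniteDimensional k L := Module.finite_of_finrank_pos (by rw [H.h3]; norm_num)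
  have : FiniteDimensional L E := Module.finite_of_finrank_pos (by rw [H.h2]; norm_num)
  have : FiniteDimensional k E := FiniteDimensional.trans k L E
  have hfr : Module.finrank k E = 6 := by
    rw [← Module.finrank_mul_finrank k L E, H.h3, H.h2]
  have hcard : Fintype.card (E →ₐ[k] ℂ) = 6 := by
    rw [AlgHom.card, hfr]
  obtain ⟨x, hx1, hx2, hx3, hx4⟩ := exists_rho_ne H
  have hα0 : α ≠ 0 := by
    intro h
    have h1 := H.α2
    rw [h, mul_zero] at h1
    exact a.ne_zero ((map_eq_zero _).1 h1.symm)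
  let f : Fin 3 × Fin 2 → (E →ₐ[k] ℂ) := fun p =>
    (W.comp ((ρ : E →ₐ[k] E) ^ (p.1 : ℕ))).comp ((σ : E →ₐ[k] E) ^ (p.2 : ℕ))
  have hf : Function.Injective f := by
    have hval : ∀ (p : Fin 3 × Fin 2) (y : E), f p y =
        W (((ρ : E →ₐ[k] E) ^ (p.1 : ℕ)) (((σ : E →ₐ[k] E) ^ (p.2 : ℕ)) y)) := fun _ _ => rfl
    have hσx : ∀ n : ℕ, ((σ : E →ₐ[k] E) ^ n) x = x := by
      intro n
      induction n with
      | zero => rfl
      | succ n ih => rw [pow_succ, AlgHom.mul_apply]; change ((σ : E →ₐ[k] E) ^ n) (σ x) = x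
                     rw [hx1, ih]
    have hρα : ∀ n : ℕ, ((ρ : E →ₐ[k] E) ^ n) α = α := by
      intro n
      induction n with
      | zero => rfl
      | succ n ih => rw [pow_succ, AlgHom.mul_apply]; change ((ρ : E →ₐ[k] E) ^ n) (ρ α) = α
                     rw [H.ρα, ih]
    rintro ⟨i, j⟩ ⟨i', j'⟩ h
    have e1 : i = i' := by
      have h1 := congrArg (fun g : E →ₐ[k] ℂ => g x) h
      simp only [hval, hσx] at h1
      have h2 := (W : E →+* ℂ).injective h1
      fin_cases i <;> fin_cases i' <;> first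
        | rfl
        | (exfalso
           simp only [Fin.zero_eta, Fin.mk_one, Fin.reduceFinMk, Fin.isValue, Fin.val_zero,
             Fin.val_one, Fin.val_two, pow_zero, pow_one, pow_two, AlgHom.mul_apply,
             AlgHom.one_apply, AlgHom.coe_coe] at h2
           first
             | exact hx2 h2
             | exact hx2 h2.symm
             | exact hx3 h2
             | exact hx3 h2.symm
             | exact hx4 h2
             | exact hx4 h2.symm)
    subst e1
    have e2 : j = j' := by
      have h1 := congrArg (fun g : E →ₐ[k] ℂ => g α) h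
      simp only [hval] at h1
      have h2 := (W : E →+* ℂ).injective h1
      have h3 : ((σ : E →ₐ[k] E) ^ (j : ℕ)) α = ((σ : E →ₐ[k] E) ^ (j' : ℕ)) α := by
        have h4 : Function.Injective ((ρ : E →ₐ[k] E) ^ (i : ℕ)) := RingHom.injective
          ((ρ : E →ₐ[k] E) ^ (i : ℕ) : E →ₐ[k] E).toRingHom
        exact h4 h2
      have hne : α ≠ -α := by
        intro h5
        have h6 : (2 : E) * α = 0 := by rw [two_mul]; nth_rw 2 [h5]; rw [add_neg_cancel]
        exact (mul_ne_zero (NeZero.ne (2 : E)) hα0) h6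
      fin_cases j <;> fin_cases j' <;> first
        | rfl
        | (exfalso
           simp only [Fin.zero_eta, Fin.mk_one, Fin.isValue, Fin.val_zero,
             Fin.val_one, pow_zero, pow_one,
             AlgHom.one_apply, AlgHom.coe_coe] at h3
           rw [show (σ : E →ₐ[k] E) α = -α from H.σα] at h3
           first
             | exact hne h3
             | exact hne h3.symm)
    rw [e2]
  have hb : Function.Bijective f := by
    rw [Fintype.bijective_iff_injective_and_card]
    exact ⟨hf, by rw [hcard]; rfl⟩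
  obtain ⟨⟨i, j⟩, hp⟩ := hb.2 V
  fin_cases j
  · left
    refine ⟨i, ?_⟩
    rw [← hp]
    rfl
  · right
    refine ⟨i, ?_⟩
    rw [← hp]
    simp only [f, Fin.mk_one, Fin.isValue, Fin.val_one, pow_one]

end model

end Vale.Agent.P011.D4Z
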